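import Vale.Agent.P368.NF

/-!
# P368: parity correlation of circuits of entangling depth two

For every finite set `ι` of qubits, every set `I ⊆ ι` of `n` input qubits (the others are ancillas
starting in `false`), every circuit of one-qubit unitaries and generalized Toffoli gates with
entangling depth at most two, and every output qubit `o`: the parity correlation is at most
`100 * 2 ^ (-n / 4)`, and so is twice any worst-case advantage.
-/

namespace Vale.Agent.Results.P368.DepthTwo

open Vale.Agent.P368

theorem result (ι : Type) [DecidableEq ι] [Fintype ι] (I : Finset ι) (o : ι)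
    (C : List (List (Gate ι))) (hC : IsCircuit C) (hd : entDepth C ≤ 2) :
    |corr I (circOp C) o| ≤ 100 * (2 : ℝ) ^ (-(I.card : ℝ) / 4) ∧
    ∀ ε : ℝ, (∀ s ∈ inputs I, 1 / 2 + ε ≤ prob (circOp C) o (par s) s) →
      ε ≤ 50 * (2 : ℝ) ^ (-(I.card : ℝ) / 4) :=
  final I o C hC hd

end Vale.Agent.Results.P368.DepthTwo
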