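import Vale.Agent.P368.Count

/-!
# P368: two entangling layers of unbounded arity followed by layers of small arity

`ι` is the set of all qubits, `I` the set of the `n` input qubits, `o` the output qubit. The circuit
`C₂ ++ C₁` applies `C₁` first and then `C₂` (the head of a list of layers is applied last).
First part: `C₁` has entangling depth at most two (no bound on the number or arity of its gates),
`C₂` has entangling depth at most `j` and its Toffoli gates act on at most `k` qubits.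
Second part: `C₁` has entangling depth at most one, `C₂` has at most `m` multiqubit gates, of any
arity and in any number of layers.
-/

namespace Vale.Agent.Results.P368.TwoLayersPlus

open Vale.Agent.P368

theorem result (ι : Type) [DecidableEq ι] [Fintype ι] (I : Finset ι) (o : ι)
    (C₁ C₂ : List (List (Gate ι))) (hC : IsCircuit (C₂ ++ C₁)) :
    (∀ k j : ℕ, 1 ≤ k → entDepth C₁ ≤ 2 → entDepth C₂ ≤ j →
      (∀ l ∈ C₂, ∀ g : Tof ι, Gate.tof g ∈ l → g.supp.card ≤ k) →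
      |corr I (circOp (C₂ ++ C₁)) o| ≤
        11 * 9 ^ (∑ i ∈ Finset.range (j + 1), k ^ i) * (2 : ℝ) ^ (-(I.card : ℝ) / 4) ∧
      ∀ ε : ℝ, (∀ s ∈ inputs I, 1 / 2 + ε ≤ prob (circOp (C₂ ++ C₁)) o (par s) s) →
        2 * ε ≤ 11 * 9 ^ (∑ i ∈ Finset.range (j + 1), k ^ i) * (2 : ℝ) ^ (-(I.card : ℝ) / 4)) ∧
    (∀ m : ℕ, entDepth C₁ ≤ 1 → multiCount C₂ ≤ m →
      |corr I (circOp (C₂ ++ C₁)) o| ≤ 11 * 9 ^ m * (2 : ℝ) ^ (-(I.card : ℝ) / 4) ∧
      ∀ ε : ℝ, (∀ s ∈ inputs I, 1 / 2 + ε ≤ prob (circOp (C₂ ++ C₁)) o (par s) s) →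
        2 * ε ≤ 11 * 9 ^ m * (2 : ℝ) ^ (-(I.card : ℝ) / 4)) :=
  ⟨fun k j hk h1 h2 h3 => final2 I o C₁ C₂ k j hk hC h1 h2 h3,
    fun m h1 h2 => final3 I o C₁ C₂ m hC h1 h2⟩

end Vale.Agent.Results.P368.TwoLayersPlus
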